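import Vale.Agent.P331.Bins

/-!
# Analysis of the random-bin threshold rule
-/

namespace Vale.Agent.P331

open MeasureTheory
open scoped ENNReal

variable {E ι : Type} {n : ℕ} {k : ι → ℕ} {idx : E → Fin n} {part : E → ι}

/-- Exchange samples and values on the set where `c` holds. -/
def swapVals (c : E → Bool) (x : (E → ℝ) × (E → ℝ)) : (E → ℝ) × (E → ℝ) :=
  (fun e => if c e then x.2 e else x.1 e, fun e => if c e then x.1 e else x.2 e)

theorem measurePreserving_swapVals [Fintype E] (D : E → Measure ℝ)
    [∀ e, IsProbabilityMeasure (D e)] (c : E → Bool) :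
    MeasurePreserving (swapVals c) ((Measure.pi D).prod (Measure.pi D))
      ((Measure.pi D).prod (Measure.pi D)) := by
  have h1 := measurePreserving_arrowProdEquivProdArrow ℝ ℝ E D D
  have h2 : MeasurePreserving (fun a e => if c e then Prod.swap (a e) else a e)
      (Measure.pi fun e => (D e).prod (D e)) (Measure.pi fun e => (D e).prod (D e)) := by
    refine measurePreserving_pi _ _ (f := fun e p => if c e then Prod.swap p else p) fun e => ?_
    cases c e
    · exact MeasurePreserving.id _
    · exact Measure.measurePreserving_swap
  have h3 := (h1.comp h2).comp (h1.symm _)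
  refine (congrArg (fun f => MeasurePreserving f ((Measure.pi D).prod (Measure.pi D))
    ((Measure.pi D).prod (Measure.pi D))) ?_).mp h3
  funext x
  refine Prod.ext (funext fun e => ?_) (funext fun e => ?_) <;>
    cases hce : c e <;>
      simp [swapVals, hce, MeasurableEquiv.arrowProdEquivProdArrow, Equiv.arrowProdEquivProdArrow]

theorem key_ne {idx : E → Fin n} (hidx : Function.Injective idx) {v w : ℝ} {e f : E} {a b : Bool}
    (h : e ≠ f ∨ a ≠ b) : key idx v e a ≠ key idx w f b := by
  intro he
  simp only [key, EmbeddingLike.apply_eq_iff_eq, Prod.mk.injEq] at he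
  rcases h with h | h
  · exact h (hidx he.2.1)
  · exact h he.2.2

theorem key_fst {idx : E → Fin n} {v w : ℝ} {e f : E} {a b : Bool}
    (h : key idx v e a ≤ key idx w f b) : v ≤ w := by
  simp only [key, Prod.Lex.toLex_le_toLex] at h
  rcases h with h | h
  · exact h.le
  · exact h.1.le

theorem two_pow_le_card [Fintype E] [DecidableEq E] (a b : E) (v w : Bool) (hvw : a = b → v = w) :
    2 ^ Fintype.card E ≤
      4 * (Finset.univ.filter fun c : E → Bool => c a = v ∧ c b = w).card := by
  have h : (Finset.univ : Finset (E → Bool)).card ≤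
      ((Finset.univ : Finset (Bool × Bool)) ×ˢ
        (Finset.univ.filter fun c : E → Bool => c a = v ∧ c b = w)).card := by
    refine Finset.card_le_card_of_injOn
      (fun c => ((c a, c b), Function.update (Function.update c a v) b w)) ?_ ?_
    · intro c _
      simp only [Finset.coe_product, Set.mem_prod, Finset.coe_univ, Set.mem_univ, true_and,
        Finset.coe_filter, Finset.mem_univ, Set.mem_ofPred_eq, Function.update_self, and_true]
      by_cases hab : a = b
      · subst hab; simp [hvw rfl]
      · simp [Function.update_of_ne hab]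
    · intro c _ d _ hcd
      simp only [Prod.mk.injEq] at hcd
      funext e
      by_cases ha : e = a
      · subst ha; exact hcd.1.1
      by_cases hb : e = b
      · subst hb; exact hcd.1.2
      simpa [Function.update_of_ne ha, Function.update_of_ne hb] using congrFun hcd.2 e
  simpa [Finset.card_product] using h

theorem bin_eq {B : ∀ i, E → Fin (k i)} {e f : E} (h : bin part B f = bin part B e) :
    B (part e) f = B (part e) e := by
  have h1 : ∀ i, part f = i → bin part B f = ⟨i, B i f⟩ := by rintro _ rfl; rfl
  rw [h1 _ (congrArg Sigma.fst h)] at h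
  simpa [bin] using h

variable [Fintype E] [DecidableEq E]

/-- The larger key of an element. -/
noncomputable def hiKey (idx : E → Fin n) (S V : E → ℝ) (β : E → Bool) (e : E) :
    Lex (ℝ × Lex (Fin n × Bool)) :=
  max (key idx (S e) e (!β e)) (key idx (V e) e (β e))

/-- Summed over all exchanges, the sure gain is a quarter of the largest value in each bin. -/
theorem sum_swap_ge [DecidableEq ι] (hidx : Function.Injective idx) (B : ∀ i, E → Fin (k i)) (β : E → Bool)
    (S V : E → ℝ) (A : Finset E) :
    (2 : ℝ≥0∞) ^ Fintype.card E * ∑ e ∈ A, ENNReal.ofReal (V e) *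
        ((A.filter fun f => bin part B f = bin part B e).card : ℝ≥0∞)⁻¹ ≤
      4 * ∑ c : E → Bool, ∑ e, sureGain idx part B (fun g => xor (c g) (β g))
        (swapVals c (S, V)).1 (swapVals c (S, V)).2 e := by
  set hi := hiKey idx S V β
  set top : E → Prop := fun e => ∀ g, bin part B g = bin part B e → g ≠ e → hi g < hi e
  set W : E → ℝ := fun e => if key idx (V e) e (β e) < key idx (S e) e (!β e) then S e else V e
  have hinj : ∀ e f, e ≠ f → hi e ≠ hi f := by
    intro e f hef
    simp only [hi, hiKey]
    rcases max_choice (key idx (S e) e (!β e)) (key idx (V e) e (β e)) with h | h <;>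
      rcases max_choice (key idx (S f) f (!β f)) (key idx (V f) f (β f)) with h' | h' <;>
        rw [h, h'] <;> exact key_ne hidx (Or.inl hef)
  have hWhi : ∀ e g, hi g ≤ hi e → V g ≤ W e := by
    intro e g hle
    have h1 : key idx (V g) g (β g) ≤ hi e := (le_max_right _ _).trans hle
    simp only [hi, hiKey] at h1
    by_cases hlt : key idx (V e) e (β e) < key idx (S e) e (!β e)
    · rw [max_eq_left hlt.le] at h1
      simp only [W, if_pos hlt]
      exact key_fst h1
    · rw [max_eq_right (not_lt.1 hlt)] at h1
      simp only [W, if_neg hlt]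
      exact key_fst h1
  have htop : ∀ e, ∃ t, bin part B t = bin part B e ∧ top t := by
    intro e
    obtain ⟨t, ht, hmax⟩ := Finset.exists_max_image
      (Finset.univ.filter fun g => bin part B g = bin part B e) hi ⟨e, by simp⟩
    simp only [Finset.mem_filter, Finset.mem_univ, true_and] at ht hmax
    exact ⟨t, ht, fun g hg hne => lt_of_le_of_ne (hmax g (hg.trans ht)) (hinj g t hne)⟩
  choose t ht htt using htop
  -- one element
  have hone : ∀ e, top e → (2 : ℝ≥0∞) ^ Fintype.card E * ENNReal.ofReal (W e) ≤
      4 * ∑ c : E → Bool, sureGain idx part B (fun g => xor (c g) (β g))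
        (swapVals c (S, V)).1 (swapVals c (S, V)).2 e := by
    intro e he
    obtain ⟨f, hf, hfmax⟩ : ∃ f, (bin part B f = bin part B e) ∧
        ∀ g, bin part B g = bin part B e → g ≠ e → f ≠ e ∧ hi g ≤ hi f := by
      by_cases hne : (Finset.univ.filter fun g => bin part B g = bin part B e ∧ g ≠ e).Nonempty
      · obtain ⟨f, hf, hmax⟩ := Finset.exists_max_image _ hi hne
        simp only [Finset.mem_filter, Finset.mem_univ, true_and] at hf hmax
        exact ⟨f, hf.1, fun g hg hge => ⟨hf.2, hmax g ⟨hg, hge⟩⟩⟩
      · exact ⟨e, rfl, fun g hg hge => absurd ⟨g, by simp [hg, hge]⟩ hne⟩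
    set v := decide (key idx (V e) e (β e) < key idx (S e) e (!β e))
    set w := if f = e then v else decide (key idx (S f) f (!β f) < key idx (V f) f (β f))
    set good := Finset.univ.filter fun c : E → Bool => c e = v ∧ c f = w
    have hgood : ∀ c ∈ good, sureGain idx part B (fun g => xor (c g) (β g))
        (swapVals c (S, V)).1 (swapVals c (S, V)).2 e = ENNReal.ofReal (W e) := by
      intro c hc
      simp only [good, Finset.mem_filter, Finset.mem_univ, true_and] at hc
      set β' := fun g => xor (c g) (β g)
      set S' := (swapVals c (S, V)).1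
      set V' := (swapVals c (S, V)).2
      have hS' : ∀ g, key idx (S' g) g (!β' g) ≤ hi g := by
        intro g
        cases hcg : c g <;> simp [S', β', swapVals, hi, hiKey, hcg]
      have hV' : ∀ g, key idx (V' g) g (β' g) ≤ hi g := by
        intro g
        cases hcg : c g <;> simp [V', β', swapVals, hi, hiKey, hcg]
      have hVe : key idx (V' e) e (β' e) = hi e ∧ V' e = W e := by
        by_cases hlt : key idx (V e) e (β e) < key idx (S e) e (!β e)
        · have : c e = true := by rw [hc.1]; simpa [v] using hlt
          simp [V', β', W, swapVals, hi, hiKey, this, hlt, max_eq_left hlt.le]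
        · have : c e = false := by rw [hc.1]; simpa [v] using hlt
          simp [V', β', W, swapVals, hi, hiKey, this, hlt, max_eq_right (not_lt.1 hlt)]
      have hpass : Passes idx part B β' S' e (V' e) := by
        intro g hg
        rw [hVe.1]
        by_cases hge : g = e
        · subst hge
          refine lt_of_le_of_ne (hS' g) ?_
          rw [← hVe.1]
          exact key_ne hidx (Or.inr (by cases β' g <;> simp))
        · exact (hS' g).trans_lt (he g hg hge)
      unfold sureGain
      rw [if_pos, hVe.2]
      refine ⟨hpass, fun g hg hge hp => ?_⟩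
      obtain ⟨hfe, hgf⟩ := hfmax g hg hge
      have hSf : key idx (S' f) f (!β' f) = hi f := by
        have hcf := hc.2
        simp only [w, if_neg hfe] at hcf
        by_cases hlt : key idx (S f) f (!β f) < key idx (V f) f (β f)
        · have : c f = true := by rw [hcf]; simpa using hlt
          simp [S', β', swapVals, hi, hiKey, this, max_eq_right hlt.le]
        · have : c f = false := by rw [hcf]; simpa using hlt
          simp [S', β', swapVals, hi, hiKey, this, max_eq_left (not_lt.1 hlt)]
      have := hp f (hf.trans hg.symm)
      rw [hSf] at this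
      exact absurd (this.trans_le ((hV' g).trans hgf)) (lt_irrefl _)
    have hcard : (2 : ℝ≥0∞) ^ Fintype.card E ≤ 4 * (good.card : ℝ≥0∞) := by
      exact_mod_cast two_pow_le_card e f v w fun h => by simp [w, h]
    calc (2 : ℝ≥0∞) ^ Fintype.card E * ENNReal.ofReal (W e)
        ≤ 4 * (good.card : ℝ≥0∞) * ENNReal.ofReal (W e) := mul_le_mul_left hcard _
      _ = 4 * ∑ c ∈ good, sureGain idx part B (fun g => xor (c g) (β g))
            (swapVals c (S, V)).1 (swapVals c (S, V)).2 e := by
          rw [Finset.sum_congr rfl hgood, Finset.sum_const, nsmul_eq_mul, mul_assoc]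
      _ ≤ _ := by gcongr; exact Finset.subset_univ _
  -- all elements
  have hsum : ∑ e ∈ A, ENNReal.ofReal (V e) *
      ((A.filter fun f => bin part B f = bin part B e).card : ℝ≥0∞)⁻¹ ≤
        ∑ e ∈ Finset.univ.filter top, ENNReal.ofReal (W e) := by
    rw [← Finset.sum_fiberwise_of_maps_to (g := t) (t := Finset.univ.filter top)
      (fun e _ => by simp [htt e])]
    refine Finset.sum_le_sum fun a ha => ?_
    simp only [Finset.mem_filter, Finset.mem_univ, true_and] at ha
    have hfib : ∀ e ∈ A.filter (fun e => t e = a),
        ENNReal.ofReal (V e) * ((A.filter fun f => bin part B f = bin part B e).card : ℝ≥0∞)⁻¹ ≤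
          ENNReal.ofReal (W a) * ((A.filter fun e => t e = a).card : ℝ≥0∞)⁻¹ := by
      intro e he
      simp only [Finset.mem_filter] at he
      refine mul_le_mul' (ENNReal.ofReal_le_ofReal (hWhi a e ?_)) (ENNReal.inv_le_inv.2 ?_)
      · by_cases hea : e = a
        · rw [hea]
        · exact (ha e (by rw [← he.2, ht]) hea).le
      · refine Nat.cast_le.2 (Finset.card_le_card fun g hg => ?_)
        simp only [Finset.mem_filter] at hg ⊢
        refine ⟨hg.1, ?_⟩
        rw [← ht g, hg.2, ← he.2, ht]
    refine (Finset.sum_le_card_nsmul _ _ _ hfib).trans ?_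
    rw [nsmul_eq_mul, mul_left_comm]
    exact mul_le_of_le_one_right' (ENNReal.mul_inv_le_one _)
  calc (2 : ℝ≥0∞) ^ Fintype.card E * _
      ≤ (2 : ℝ≥0∞) ^ Fintype.card E * ∑ e ∈ Finset.univ.filter top, ENNReal.ofReal (W e) := by
        gcongr
    _ ≤ _ := by
        rw [Finset.mul_sum, Finset.sum_comm (s := (Finset.univ : Finset (E → Bool))), Finset.mul_sum]
        refine (Finset.sum_le_sum fun e he => hone e (Finset.mem_filter.1 he).2).trans ?_
        exact Finset.sum_le_sum_of_subset (Finset.subset_univ _)

/-- Summed over the bins, the number of members of `A` sharing the bin of `e` is small. -/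
theorem sum_inv_card_ge [Fintype ι] [DecidableEq ι] {C : ℕ} (A : Finset E) {e : E} (he : e ∈ A)
    (hA : (A.filter fun f => part f = part e).card ≤ C * k (part e)) (hk : 0 < k (part e)) :
    (Fintype.card (∀ i, E → Fin (k i)) : ℝ≥0∞) / (C + 1 : ℕ) ≤
      ∑ B : ∀ i, E → Fin (k i),
        ((A.filter fun f => bin part B f = bin part B e).card : ℝ≥0∞)⁻¹ := by
  classical
  set i := part e
  set K := Fintype.card (∀ i, E → Fin (k i))
  have hpair : ∀ f, part f = i → f ≠ e →
      (Finset.univ.filter fun B : ∀ i, E → Fin (k i) => B i f = B i e).card * k i ≤ K := by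
    intro f _ hne
    have := Finset.card_le_card_of_injOn (s := (Finset.univ.filter fun B : ∀ i, E → Fin (k i) =>
        B i f = B i e) ×ˢ (Finset.univ : Finset (Fin (k i))))
      (t := (Finset.univ : Finset (∀ i, E → Fin (k i))))
      (fun p => Function.update p.1 i (Function.update (p.1 i) f p.2))
      (fun p _ => Finset.mem_coe.2 (Finset.mem_univ _)) (by
        rintro ⟨B, a⟩ hB ⟨B', a'⟩ hB' hBB
        simp only [Finset.coe_product, Set.mem_prod, Finset.coe_filter, Finset.mem_univ, true_and,
          Set.mem_ofPred_eq] at hB hB'
        have h1 : Function.update (B i) f a = Function.update (B' i) f a' := by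
          simpa using congrFun hBB i
        have ha : a = a' := by simpa using congrFun h1 f
        have h2 : B i e = B' i e := by
          simpa [Function.update_of_ne (Ne.symm hne)] using congrFun h1 e
        refine Prod.ext (funext fun j => ?_) ha
        by_cases hj : j = i
        · subst hj
          funext g
          by_cases hg : g = f
          · subst hg; show B i g = B' i g; rw [hB.1, hB'.1, h2]
          · simpa [Function.update_of_ne hg] using congrFun h1 g
        · simpa [Function.update_of_ne hj] using congrFun hBB j)
    simpa [Finset.card_product, K] using this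
  have htot : (∑ B : ∀ i, E → Fin (k i), (A.filter fun f => bin part B f = bin part B e).card) * k i
      ≤ (C + 1) * k i * K := by
    have hswap : (∑ B : ∀ i, E → Fin (k i), (A.filter fun f => bin part B f = bin part B e).card)
        = ∑ f ∈ A, (Finset.univ.filter fun B : ∀ i, E → Fin (k i) =>
            bin part B f = bin part B e).card := by
      simp only [Finset.card_filter]
      exact Finset.sum_comm
    rw [hswap, Finset.sum_mul, ← Finset.add_sum_erase A _ he]
    have hrest : ∀ f ∈ A.erase e, (Finset.univ.filter fun B : ∀ i, E → Fin (k i) =>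
        bin part B f = bin part B e).card * k i ≤ if part f = i then K else 0 := by
      intro f hf
      split
      · rename_i hfi
        refine le_trans (Nat.mul_le_mul_right _ (Finset.card_le_card fun B hB => ?_))
          (hpair f hfi (Finset.ne_of_mem_erase hf))
        simp only [Finset.mem_filter, Finset.mem_univ, true_and] at hB ⊢
        exact bin_eq hB
      · rename_i hfi
        simp [bin, hfi, i]
    have h1 : (Finset.univ.filter fun B : ∀ i, E → Fin (k i) =>
        bin part B e = bin part B e).card * k i = K * k i := by simp [K]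
    refine (Nat.add_le_add h1.le (Finset.sum_le_sum hrest)).trans ?_
    rw [← Finset.sum_filter, Finset.sum_const, smul_eq_mul]
    calc K * k i + ((A.erase e).filter fun f => part f = i).card * K
        ≤ K * k i + C * k i * K := Nat.add_le_add_left (Nat.mul_le_mul_right _
          ((Finset.card_le_card (Finset.filter_subset_filter _ (Finset.erase_subset _ _))).trans hA)) _
      _ = (C + 1) * k i * K := by ring
  set N : (∀ i, E → Fin (k i)) → ℕ := fun B => (A.filter fun f => bin part B f = bin part B e).card
  have hN : ∀ B, 0 < N B := fun B => Finset.card_pos.2 ⟨e, by simp [he]⟩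
  have hsumN : ∑ B, N B ≤ (C + 1) * K := Nat.le_of_mul_le_mul_right (by linarith) hk
  have hreal : (K : ℝ) / (C + 1 : ℕ) ≤ ∑ B, ((N B : ℝ))⁻¹ := by
    have h := Finset.sq_sum_div_le_sum_sq_div Finset.univ (fun _ : ∀ i, E → Fin (k i) => (1 : ℝ))
      (g := fun B => (N B : ℝ)) (fun B _ => by exact_mod_cast hN B)
    simp only [one_pow, one_div, Finset.sum_const, nsmul_eq_mul, mul_one, Finset.card_univ] at h
    refine le_trans ?_ h
    rcases Nat.eq_zero_or_pos K with hK0 | hKp
    · simp [K, hK0]
    have hpos : (0 : ℝ) < ∑ B, (N B : ℝ) := by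
      have : Nonempty (∀ i, E → Fin (k i)) := Fintype.card_pos_iff.1 hKp
      exact Finset.sum_pos (fun B _ => by exact_mod_cast hN B) Finset.univ_nonempty
    rw [div_le_div_iff₀ (by positivity) hpos, pow_two, mul_assoc]
    refine mul_le_mul_of_nonneg_left ?_ (by positivity)
    calc ∑ B, (N B : ℝ) ≤ (((C + 1) * K : ℕ) : ℝ) := by exact_mod_cast hsumN
      _ = (K : ℝ) * (C + 1 : ℕ) := by push_cast; ring
  have := ENNReal.ofReal_le_ofReal hreal
  rw [ENNReal.ofReal_div_of_pos (by positivity), ENNReal.ofReal_natCast, ENNReal.ofReal_natCast,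
    ENNReal.ofReal_sum_of_nonneg (fun B _ => by positivity)] at this
  refine this.trans (le_of_eq (Finset.sum_congr rfl fun B _ => ?_))
  rw [ENNReal.ofReal_inv_of_pos (by exact_mod_cast hN B), ENNReal.ofReal_natCast]

end Vale.Agent.P331
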