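import Vale.Agent.P331.Defs

/-!
# A random-bin threshold rule
-/

namespace Vale.Agent.P331

open MeasureTheory
open scoped ENNReal

variable {E ι : Type} {n : ℕ}

/-- The comparison key of one of the two values of an element. -/
def key (idx : E → Fin n) (v : ℝ) (e : E) (b : Bool) : Lex (ℝ × Lex (Fin n × Bool)) :=
  toLex (v, toLex (idx e, b))

variable {k : ι → ℕ}

/-- The bin of an element. -/
def bin (part : E → ι) (B : ∀ i, E → Fin (k i)) (e : E) : Σ i, Fin (k i) :=
  ⟨part e, B (part e) e⟩

/-- An element passes when its value beats every sample of its bin. -/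
def Passes (idx : E → Fin n) (part : E → ι) (B : ∀ i, E → Fin (k i)) (β : E → Bool)
    (S : E → ℝ) (e : E) (v : ℝ) : Prop :=
  ∀ g, bin part B g = bin part B e → key idx (S g) g (!β g) < key idx v e (β e)

open Classical in
/-- The rule: accept the first passing element of each bin. -/
noncomputable def binRule (idx : E → Fin n) (part : E → ι) :
    ((∀ i, E → Fin (k i)) × (E → Bool)) → (E → ℝ) → List (E × ℝ) → E → ℝ → Bool :=
  fun r S hist e v => decide (Passes idx part r.1 r.2 S e v ∧
    ∀ h ∈ hist, bin part r.1 h.1 = bin part r.1 e → ¬ Passes idx part r.1 r.2 S h.1 h.2)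

open Classical in
/-- The value of `e` when it is the only passing element of its bin, and zero otherwise. -/
noncomputable def sureGain (idx : E → Fin n) (part : E → ι) (B : ∀ i, E → Fin (k i)) (β : E → Bool)
    (S V : E → ℝ) (e : E) : ℝ≥0∞ :=
  if Passes idx part B β S e (V e) ∧ ∀ f, bin part B f = bin part B e → f ≠ e →
      ¬ Passes idx part B β S f (V f) then ENNReal.ofReal (V e) else 0

variable {idx : E → Fin n} {part : E → ι} [DecidableEq E]

theorem mem_accepted {r : (∀ i, E → Fin (k i)) × (E → Bool)} {S V : E → ℝ} :
    ∀ {l : List E} {hist : List (E × ℝ)} {e : E}, e ∈ accepted (binRule idx part) r S V hist l →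
      e ∈ l ∧ Passes idx part r.1 r.2 S e (V e) ∧
        ∀ h ∈ hist, bin part r.1 h.1 = bin part r.1 e → ¬ Passes idx part r.1 r.2 S h.1 h.2
  | [], _, _, h => by simp [accepted] at h
  | a :: l, hist, e, h => by
    simp only [accepted, Finset.mem_union] at h
    rcases h with h | h
    · split at h
      · rename_i hd
        rw [Finset.mem_singleton] at h
        subst h
        simp only [binRule, decide_eq_true_eq] at hd
        exact ⟨List.mem_cons_self, hd⟩
      · simp at h
    · obtain ⟨h1, h2, h3⟩ := mem_accepted h
      exact ⟨List.mem_cons_of_mem _ h1, h2, fun g hg => h3 g (List.mem_append_left _ hg)⟩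

theorem eq_of_accepted {r : (∀ i, E → Fin (k i)) × (E → Bool)} {S V : E → ℝ} :
    ∀ {l : List E} {hist : List (E × ℝ)} {e f : E}, e ∈ accepted (binRule idx part) r S V hist l →
      f ∈ accepted (binRule idx part) r S V hist l → bin part r.1 e = bin part r.1 f → e = f
  | [], _, _, _, h, _, _ => by simp [accepted] at h
  | a :: l, hist, e, f, he, hf, hb => by
    have hcase : ∀ g, g ∈ accepted (binRule idx part) r S V hist (a :: l) →
        (g = a ∧ Passes idx part r.1 r.2 S a (V a)) ∨
          g ∈ accepted (binRule idx part) r S V (hist ++ [(a, V a)]) l := by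
      intro g hg
      simp only [accepted, Finset.mem_union] at hg
      rcases hg with hg | hg
      · split at hg
        · rename_i hd
          simp only [binRule, decide_eq_true_eq] at hd
          exact Or.inl ⟨Finset.mem_singleton.1 hg, hd.1⟩
        · simp at hg
      · exact Or.inr hg
    rcases hcase e he with ⟨rfl, hpa⟩ | he' <;> rcases hcase f hf with ⟨rfl, hpb⟩ | hf'
    · rfl
    · exact absurd hpa ((mem_accepted hf').2.2 (e, V e) (List.mem_append_right _ (by simp)) hb)
    · exact absurd hpb ((mem_accepted he').2.2 (f, V f) (List.mem_append_right _ (by simp)) hb.symm)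
    · exact eq_of_accepted he' hf' hb

theorem mem_accepted_of_unique {r : (∀ i, E → Fin (k i)) × (E → Bool)} {S V : E → ℝ} {e : E}
    (hp : Passes idx part r.1 r.2 S e (V e))
    (hu : ∀ f, bin part r.1 f = bin part r.1 e → f ≠ e → ¬ Passes idx part r.1 r.2 S f (V f)) :
    ∀ {l : List E} {hist : List (E × ℝ)}, e ∈ l → (∀ h ∈ hist, h.1 ≠ e ∧ h.2 = V h.1) → l.Nodup →
      e ∈ accepted (binRule idx part) r S V hist l
  | [], _, h, _, _ => by simp at h
  | a :: l, hist, he, hh, hnd => by
    simp only [accepted, Finset.mem_union]
    by_cases hae : a = e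
    · left
      subst hae
      have : binRule idx part r S hist a (V a) = true := by
        simp only [binRule, decide_eq_true_eq]
        refine ⟨hp, fun h hm hb => ?_⟩
        rw [(hh h hm).2]
        exact hu _ hb (hh h hm).1
      simp [this]
    · right
      refine mem_accepted_of_unique hp hu
        ((List.mem_cons.1 he).resolve_left fun h => hae h.symm) ?_ (List.nodup_cons.1 hnd).2
      intro h hm
      rcases List.mem_append.1 hm with hm | hm
      · exact hh h hm
      · rw [List.mem_singleton] at hm
        subst hm
        exact ⟨hae, rfl⟩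

variable [Fintype E]

theorem sum_sureGain_le {r : (∀ i, E → Fin (k i)) × (E → Bool)} {S V : E → ℝ} {l : List E}
    (hl : l.Nodup) (hmem : ∀ e, e ∈ l) :
    ∑ e, sureGain idx part r.1 r.2 S V e ≤
      ∑ e ∈ accepted (binRule idx part) r S V [] l, ENNReal.ofReal (V e) := by
  classical
  calc ∑ e, sureGain idx part r.1 r.2 S V e
      = ∑ e ∈ accepted (binRule idx part) r S V [] l, sureGain idx part r.1 r.2 S V e := by
        refine (Finset.sum_subset (Finset.subset_univ _) fun e _ he => ?_).symm
        unfold sureGain
        split
        · rename_i h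
          exact absurd (mem_accepted_of_unique h.1 h.2 (hmem e) (by simp) hl) he
        · rfl
    _ ≤ _ := Finset.sum_le_sum fun e _ => by
        unfold sureGain
        split
        · exact le_rfl
        · exact zero_le

/-- The rule keeps at most `k i` elements of each part. -/
theorem card_accepted_le [DecidableEq ι] (r : (∀ i, E → Fin (k i)) × (E → Bool)) (S V : E → ℝ)
    (l : List E) (i : ι) :
    ((accepted (binRule idx part) r S V [] l).filter fun e => part e = i).card ≤ k i := by
  classical
  refine le_trans (Finset.card_le_card_of_injOn (t := (Finset.univ : Finset (Fin (k i))))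
    (fun e => r.1 i e) (fun e _ => Finset.mem_coe.2 (Finset.mem_univ _)) ?_) (by simp)
  intro e he f hf hef
  simp only [Finset.coe_filter, Set.mem_ofPred_eq] at he hf
  refine eq_of_accepted he.1 hf.1 ?_
  obtain ⟨-, rfl⟩ := he
  simp only [bin]
  rw [hf.2]
  exact congrArg _ hef

end Vale.Agent.P331
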