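import Vale.Agent.P331.Analysis

/-!
# One sample suffices for matroids of bounded branch-width
-/

namespace Vale.Agent.P331.Deg

open MeasureTheory
open scoped ENNReal

set_option linter.unusedSectionVars false

variable {E ι : Type} [Fintype E] [DecidableEq E] [Fintype ι] [DecidableEq ι] {n : ℕ} {k : ι → ℕ}

theorem measurable_sureGain (idx : E → Fin n) (part : E → ι) (r : (∀ i, E → Fin (k i)) × (E → Bool))
    (e : E) : Measurable fun x : (E → ℝ) × (E → ℝ) => sureGain idx part r.1 r.2 x.1 x.2 e := by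
  classical
  have hlt : ∀ (g f : E) (a b : Bool),
      MeasurableSet {x : (E → ℝ) × (E → ℝ) | key idx (x.1 g) g a < key idx (x.2 f) f b} := by
    intro g f a b
    simp only [key, Prod.Lex.toLex_lt_toLex]
    exact (measurableSet_lt ((measurable_pi_apply g).comp measurable_fst)
      ((measurable_pi_apply f).comp measurable_snd)).union
      ((measurableSet_eq_fun ((measurable_pi_apply g).comp measurable_fst)
        ((measurable_pi_apply f).comp measurable_snd)).inter (MeasurableSet.const _))
  have hpass : ∀ f : E,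
      MeasurableSet {x : (E → ℝ) × (E → ℝ) | Passes idx part r.1 r.2 x.1 f (x.2 f)} := by
    intro f
    simp only [Passes, Set.ofPred_forall]
    exact MeasurableSet.iInter fun g => MeasurableSet.iInter fun _ => hlt g f _ _
  refine Measurable.ite ?_ (ENNReal.measurable_ofReal.comp
    ((measurable_pi_apply e).comp measurable_snd)) measurable_const
  simp only [Set.ofPred_and, Set.ofPred_forall]
  exact (hpass e).inter (MeasurableSet.iInter fun f => MeasurableSet.iInter fun _ =>
    MeasurableSet.iInter fun _ => (hpass f).compl)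

theorem measurable_opt (M : Matroid E) : Measurable (opt M) :=
  Measurable.iSup fun A => Measurable.iSup fun _ => Finset.measurable_sum A fun e _ =>
    ENNReal.measurable_ofReal.comp (measurable_pi_apply e)

theorem pointwise_bound {M : Matroid E} {idx : E → Fin n} (hidx : Function.Injective idx)
    {part : E → ι} (k : ι → ℕ) {C : ℕ} (hk : ∀ i, 0 < k i)
    (hrank : ∀ A : Finset E, M.Indep (A : Set E) →
      ∀ i, (A.filter fun e => part e = i).card ≤ C * k i) (x : (E → ℝ) × (E → ℝ)) :
    (2 : ℝ≥0∞) ^ Fintype.card E *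
        ((Fintype.card ((∀ i, E → Fin (k i)) × (E → Bool)) : ℝ≥0∞) / (C + 1 : ℕ)) * opt M x.2 ≤
      4 * ∑ c : E → Bool, ∑ B : ∀ i, E → Fin (k i), ∑ β : E → Bool,
        ∑ e, sureGain idx part B (fun e => xor (c e) (β e)) (swapVals c x).1 (swapVals c x).2 e := by
  classical
  set P : ℝ≥0∞ := 2 ^ Fintype.card E
  set R := Fintype.card ((∀ i, E → Fin (k i)) × (E → Bool))
  simp only [opt, ENNReal.mul_iSup]
  refine iSup₂_le fun A hA => ?_
  have h1 : ∀ e ∈ A, ((R : ℝ≥0∞) / (C + 1 : ℕ)) * ENNReal.ofReal (x.2 e) ≤ ∑ β : E → Bool,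
      ∑ B : ∀ i, E → Fin (k i), ENNReal.ofReal (x.2 e) *
        ((A.filter fun f => bin part B f = bin part B e).card : ℝ≥0∞)⁻¹ := by
    intro e he
    have h := sum_inv_card_ge (part := part) A he (hrank A hA _) (hk _)
    simp only [← Finset.mul_sum, Finset.sum_const, Finset.card_univ, nsmul_eq_mul]
    refine le_trans (le_of_eq ?_) (mul_le_mul_right (mul_le_mul_right h _) _)
    simp only [R, Fintype.card_prod, Nat.cast_mul, div_eq_mul_inv]
    ring
  calc P * ((R : ℝ≥0∞) / (C + 1 : ℕ)) * ∑ e ∈ A, ENNReal.ofReal (x.2 e)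
      = P * ∑ e ∈ A, ((R : ℝ≥0∞) / (C + 1 : ℕ)) * ENNReal.ofReal (x.2 e) := by
        rw [mul_assoc, Finset.mul_sum A]
    _ ≤ P * ∑ e ∈ A, ∑ β : E → Bool, ∑ B : ∀ i, E → Fin (k i), ENNReal.ofReal (x.2 e) *
          ((A.filter fun f => bin part B f = bin part B e).card : ℝ≥0∞)⁻¹ := by
        gcongr with e he; exact h1 e he
    _ = ∑ β : E → Bool, ∑ B : ∀ i, E → Fin (k i), P * ∑ e ∈ A, ENNReal.ofReal (x.2 e) *
          ((A.filter fun f => bin part B f = bin part B e).card : ℝ≥0∞)⁻¹ := by
        simp only [Finset.mul_sum]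
        rw [Finset.sum_comm]
        exact Finset.sum_congr rfl fun β _ => Finset.sum_comm
    _ ≤ ∑ β : E → Bool, ∑ B : ∀ i, E → Fin (k i), 4 * ∑ c : E → Bool,
          ∑ e, sureGain idx part B (fun e => xor (c e) (β e)) (swapVals c x).1 (swapVals c x).2 e :=
        Finset.sum_le_sum fun β _ => Finset.sum_le_sum fun B _ =>
          sum_swap_ge hidx B β x.1 x.2 A
    _ = _ := by
        simp only [← Finset.mul_sum]
        congr 1
        conv_rhs => rw [Finset.sum_comm]
        rw [Finset.sum_comm]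
        exact Finset.sum_congr rfl fun B _ => Finset.sum_comm

theorem exchange_bound (D : E → Measure ℝ) [∀ e, IsProbabilityMeasure (D e)]
    (g : (∀ i, E → Fin (k i)) × (E → Bool) → (E → ℝ) × (E → ℝ) → ℝ≥0∞) (hg : ∀ r, Measurable (g r))
    (φ : (E → ℝ) × (E → ℝ) → ℝ≥0∞)
    (hφ : ∀ x, φ x ≤ 4 * ∑ c : E → Bool, ∑ B, ∑ β : E → Bool,
      g (B, fun e => xor (c e) (β e)) (swapVals c x)) :
    ∫⁻ x, φ x ∂((Measure.pi D).prod (Measure.pi D)) ≤ 4 * ((2 : ℝ≥0∞) ^ Fintype.card E *
      ∑ r, ∫⁻ x, g r x ∂((Measure.pi D).prod (Measure.pi D))) := by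
  classical
  set μ := (Measure.pi D).prod (Measure.pi D)
  set P : ℝ≥0∞ := 2 ^ Fintype.card E
  -- each exchange preserves the total
  have hsym : ∀ c : E → Bool, ∑ B, ∑ β : E → Bool,
      ∫⁻ x, g (B, fun e => xor (c e) (β e)) (swapVals c x) ∂μ = ∑ r, ∫⁻ x, g r x ∂μ := by
    intro c
    rw [Fintype.sum_prod_type]
    refine Finset.sum_congr rfl fun B _ => ?_
    have hinv : Function.Involutive fun (β : E → Bool) e => xor (c e) (β e) :=
      fun β => funext fun e => by simp
    refine (Finset.sum_congr rfl fun β _ =>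
      (measurePreserving_swapVals D c).lintegral_comp (hg (B, fun e => xor (c e) (β e)))).trans ?_
    exact Equiv.sum_comp hinv.toPerm fun β => ∫⁻ x, g (B, β) x ∂μ
  refine (lintegral_mono hφ).trans (le_of_eq ?_)
  have hm : ∀ c B (β : E → Bool), Measurable fun x : (E → ℝ) × (E → ℝ) =>
      g (B, fun e => xor (c e) (β e)) (swapVals c x) := fun c B β =>
    (hg _).comp (measurePreserving_swapVals D c).measurable
  have hm2 : ∀ c B, Measurable fun x : (E → ℝ) × (E → ℝ) =>
      ∑ β : E → Bool, g (B, fun e => xor (c e) (β e)) (swapVals c x) := fun c B =>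
    Finset.measurable_sum _ fun β _ => hm c B β
  have hm3 : ∀ c, Measurable fun x : (E → ℝ) × (E → ℝ) => ∑ B, ∑ β : E → Bool,
      g (B, fun e => xor (c e) (β e)) (swapVals c x) := fun c =>
    Finset.measurable_sum _ fun B _ => hm2 c B
  rw [lintegral_const_mul _ (Finset.measurable_sum _ fun c _ => hm3 c),
    lintegral_finsetSum _ fun c _ => hm3 c]
  congr 1
  have hc : ∀ c : E → Bool, ∫⁻ x, ∑ B, ∑ β : E → Bool,
      g (B, fun e => xor (c e) (β e)) (swapVals c x) ∂μ = ∑ r, ∫⁻ x, g r x ∂μ := fun c => by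
    rw [lintegral_finsetSum _ fun B _ => hm2 c B, ← hsym c]
    exact Finset.sum_congr rfl fun B _ => lintegral_finsetSum _ fun β _ => hm c B β
  simp only [hc, Finset.sum_const, Finset.card_univ, nsmul_eq_mul]
  simp [P]

open Classical in
/-- Zero out the elements that are not independent on their own. -/
noncomputable def clean (M : Matroid E) (S : E → ℝ) : E → ℝ :=
  fun e => if M.Indep {e} then S e else 0

open Classical in
/-- The bin rule on cleaned data, keeping only elements independent on their own. -/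
noncomputable def cleanRule (M : Matroid E) (idx : E → Fin n) (part : E → ι) :
    ((∀ i, E → Fin (k i)) × (E → Bool)) → (E → ℝ) → List (E × ℝ) → E → ℝ → Bool :=
  fun r S hist e v => binRule idx part r (clean M S)
      (hist.map fun h => (h.1, if M.Indep {h.1} then h.2 else 0)) e
      (if M.Indep {e} then v else 0) && decide (M.Indep {e})

open Classical in
theorem accepted_cleanRule (M : Matroid E) (idx : E → Fin n) (part : E → ι)
    (r : (∀ i, E → Fin (k i)) × (E → Bool)) (S V : E → ℝ) :
    ∀ (l : List E) (hist : List (E × ℝ)),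
      accepted (cleanRule M idx part) r S V hist l =
        (accepted (binRule idx part) r (clean M S) (clean M V)
          (hist.map fun h => (h.1, if M.Indep {h.1} then h.2 else 0)) l).filter
            fun e => M.Indep {e} := by
  intro l
  induction l with
  | nil => intro hist; simp [accepted]
  | cons e l ih =>
    intro hist
    simp only [accepted, Finset.filter_union]
    rw [ih (hist ++ [(e, V e)])]
    simp only [List.map_append, List.map_cons, List.map_nil]
    refine congrArg₂ (· ∪ ·) ?_ rfl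
    simp only [cleanRule, clean]
    by_cases he : M.Indep {e}
    · simp only [he, if_true, decide_true, Bool.and_true]
      split_ifs <;> simp [Finset.filter_singleton, Matroid.indep_singleton.1 he]
    · have he' : ¬ M.IsNonloop e := fun h => he (Matroid.indep_singleton.2 h)
      simp only [he, if_false, decide_false, Bool.and_false, Bool.false_eq_true]
      split_ifs <;> simp [Finset.filter_singleton, he']

theorem opt_clean (M : Matroid E) (V : E → ℝ) : opt M (clean M V) = opt M V := by
  refine iSup_congr fun A => iSup_congr fun hA => Finset.sum_congr rfl fun e he => ?_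
  have : M.Indep {e} := hA.subset (Set.singleton_subset_iff.2 (by simpa using he))
  simp [clean, this]

theorem measurable_clean (M : Matroid E) : Measurable (clean M) := by
  refine measurable_pi_lambda _ fun e => ?_
  unfold clean
  by_cases he : M.Indep {e} <;> simp [he, measurable_pi_apply]

/-- The partition criterion, with elements dependent on their own allowed. -/
theorem isCompetitive_of_flag {M : Matroid E} {part : E → ι} (k : ι → ℕ) {C : ℕ}
    (hk : ∀ i, 0 < k i)
    (hind : ∀ A : Finset E, (∀ e ∈ A, M.Indep {e}) →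
      (∀ i, (A.filter fun e => part e = i).card ≤ k i) → M.Indep (A : Set E))
    (hrank : ∀ A : Finset E, M.Indep (A : Set E) →
      ∀ i, (A.filter fun e => part e = i).card ≤ C * k i) :
    IsCompetitive M ((4 * (C + 1) : ℕ) : ℝ≥0∞)⁻¹ := by
  classical
  have : ∀ i, Nonempty (Fin (k i)) := fun i => ⟨⟨0, hk i⟩⟩
  set idx : E → Fin (Fintype.card E) := fun e => Fintype.equivFin E e
  have hidx : Function.Injective idx := (Fintype.equivFin E).injective
  refine ⟨(∀ i, E → Fin (k i)) × (E → Bool), inferInstance, inferInstance, cleanRule M idx part,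
    fun r S V l _ => ?_, fun D hD π hπ => ?_⟩
  · rw [accepted_cleanRule]
    refine hind _ (fun e he => (Finset.mem_filter.1 he).2) fun i => ?_
    exact (Finset.card_le_card (Finset.filter_subset_filter _ (Finset.filter_subset _ _))).trans
      (card_accepted_le r _ _ l i)
  set μ := (Measure.pi D).prod (Measure.pi D)
  set z : (E → ℝ) × (E → ℝ) → (E → ℝ) × (E → ℝ) := fun x => (clean M x.1, clean M x.2)
  have hz : Measurable z := ((measurable_clean M).comp measurable_fst).prodMk
    ((measurable_clean M).comp measurable_snd)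
  set g : ((∀ i, E → Fin (k i)) × (E → Bool)) → (E → ℝ) × (E → ℝ) → ℝ≥0∞ :=
    fun r x => ∑ e, sureGain idx part r.1 r.2 (z x).1 (z x).2 e
  have hg : ∀ r, Measurable (g r) := fun r =>
    Finset.measurable_sum _ fun e _ => (measurable_sureGain idx part r e).comp hz
  set R := Fintype.card ((∀ i, E → Fin (k i)) × (E → Bool))
  set P : ℝ≥0∞ := 2 ^ Fintype.card E
  have hint : P * ((R : ℝ≥0∞) / (C + 1 : ℕ)) * ∫⁻ V, opt M V ∂(Measure.pi D) ≤
      4 * (P * ∑ r, ∫⁻ x, g r x ∂μ) := by
    have e1 : ∫⁻ V, opt M V ∂(Measure.pi D) = ∫⁻ x, opt M x.2 ∂μ :=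
      ((measurePreserving_snd (μ := Measure.pi D) (ν := Measure.pi D)).lintegral_comp
        (measurable_opt M)).symm
    rw [e1, ← lintegral_const_mul _ (show Measurable fun x : (E → ℝ) × (E → ℝ) => opt M x.2 from
      (measurable_opt M).comp measurable_snd)]
    refine exchange_bound D g hg _ fun x => ?_
    have hcomm : ∀ c, z (swapVals c x) = swapVals c (z x) := by
      intro c
      refine Prod.ext (funext fun e => ?_) (funext fun e => ?_) <;>
        cases hce : c e <;> simp [z, swapVals, clean, hce]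
    simp only [g, hcomm]
    rw [← opt_clean M x.2]
    exact pointwise_bound hidx k hk hrank (z x)
  have hR0 : (R : ℝ≥0∞) ≠ 0 := Nat.cast_ne_zero.2 Fintype.card_ne_zero
  have hP0 : P ≠ 0 := pow_ne_zero _ two_ne_zero
  have hPt : P ≠ ⊤ := ENNReal.pow_ne_top ENNReal.ofNat_ne_top
  have hgain : ∀ r x, g r x ≤
      ∑ e ∈ accepted (cleanRule M idx part) r x.1 x.2 [] (π r x.1 x.2), ENNReal.ofReal (x.2 e) := by
    intro r x
    rw [accepted_cleanRule, Finset.sum_filter]
    refine (sum_sureGain_le (hπ r x.1 x.2).1 (hπ r x.1 x.2).2).trans (le_of_eq ?_)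
    refine Finset.sum_congr rfl fun e _ => ?_
    simp only [z, clean]
    split_ifs <;> simp
  refine le_trans ?_ (lintegral_mono fun x => mul_le_mul_right (Finset.sum_le_sum fun r _ =>
    hgain r x) _)
  rw [lintegral_const_mul _ (Finset.measurable_sum _ fun r _ => hg r),
    lintegral_finsetSum _ fun r _ => hg r]
  set I := ∫⁻ V, opt M V ∂(Measure.pi D)
  set S := ∑ r, ∫⁻ x, g r x ∂μ
  have h4 : (R : ℝ≥0∞) / (C + 1 : ℕ) * I ≤ 4 * S := by
    rw [← ENNReal.mul_le_mul_iff_right hP0 hPt]
    calc P * ((R : ℝ≥0∞) / (C + 1 : ℕ) * I) = P * ((R : ℝ≥0∞) / (C + 1 : ℕ)) * I := by ring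
      _ ≤ 4 * (P * S) := hint
      _ = P * (4 * S) := by ring
  calc ((4 * (C + 1) : ℕ) : ℝ≥0∞)⁻¹ * I
      = (R : ℝ≥0∞)⁻¹ * (4⁻¹ * ((R : ℝ≥0∞) / (C + 1 : ℕ) * I)) := by
        rw [Nat.cast_mul, ENNReal.mul_inv (Or.inr (ENNReal.natCast_ne_top _))
          (Or.inr (Nat.cast_ne_zero.2 (Nat.succ_ne_zero C))), div_eq_mul_inv, Nat.cast_ofNat]
        calc (4 : ℝ≥0∞)⁻¹ * ((C + 1 : ℕ) : ℝ≥0∞)⁻¹ * I
            = ((R : ℝ≥0∞)⁻¹ * R) * (4⁻¹ * ((C + 1 : ℕ) : ℝ≥0∞)⁻¹ * I) := by
              rw [ENNReal.inv_mul_cancel hR0 (ENNReal.natCast_ne_top _), one_mul]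
          _ = _ := by ring
    _ ≤ (R : ℝ≥0∞)⁻¹ * (4⁻¹ * (4 * S)) := by gcongr
    _ = (R : ℝ≥0∞)⁻¹ * S := by
        rw [← mul_assoc (4 : ℝ≥0∞)⁻¹, ENNReal.inv_mul_cancel (by norm_num) (by norm_num), one_mul]

/-- Every set of positive rank has a subset of smaller rank outside whose closure the rank is at
most `C`: every restriction has a cocircuit of rank at most `C`. -/
def RankDegenerate {E : Type} (M : Matroid E) (C : ℕ) : Prop :=
  ∀ F : Set E, 0 < M.eRk F →
    ∃ H : Set E, H ⊆ F ∧ M.eRk H < M.eRk F ∧ M.eRk (F \ M.closure H) ≤ C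

/-- A branch decomposition of width at most `w`: a family of sets containing the whole, each with
connectivity at most `w` and, unless it has at most one element, split into two of its members. -/
def BranchWidthLE {E : Type} [Fintype E] [DecidableEq E] (M : Matroid E) (w : ℕ) : Prop :=
  ∃ T : Finset (Finset E), Finset.univ ∈ T ∧ ∀ X ∈ T,
    M.eRk (X : Set E) + M.eRk (X : Set E)ᶜ ≤ M.eRank + w ∧
    (1 < X.card → ∃ Y ∈ T, ∃ Z ∈ T, Y.Nonempty ∧ Z.Nonempty ∧ Disjoint Y Z ∧ Y ∪ Z = X)

omit [DecidableEq E] in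
theorem exists_flag {M : Matroid E} {C : ℕ} (hM : RankDegenerate M C) :
    ∀ (n : ℕ) (F : Set E), M.eRk F ≤ n → ∃ f : E → ℕ, (∀ x, f x ≤ n) ∧
      (∀ A : Finset E, (A : Set E) ⊆ F → (∀ e ∈ A, M.Indep {e}) →
        Set.InjOn f (A : Set E) → M.Indep (A : Set E)) ∧
      ∀ A : Finset E, (A : Set E) ⊆ F → M.Indep (A : Set E) →
        ∀ i, (A.filter fun e => f e = i).card ≤ max C 1 := by
  classical
  intro n
  induction n with
  | zero =>
    intro F hF
    have hnone : ∀ e ∈ F, ¬ M.Indep {e} := by
      intro e he hind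
      have h := (hind.encard_le_eRk_of_subset (Set.singleton_subset_iff.2 he)).trans hF
      simp at h
    refine ⟨fun _ => 0, fun _ => le_rfl, fun A hA hsing _ => ?_, fun A hA hind i => ?_⟩
    · rcases A.eq_empty_or_nonempty with rfl | ⟨e, he⟩
      · simp
      · exact absurd (hsing e he) (hnone e (hA he))
    · rcases A.eq_empty_or_nonempty with rfl | ⟨e, he⟩
      · simp
      · exact absurd (hind.subset (Set.singleton_subset_iff.2 (by simpa using he)))
          (hnone e (hA he))
  | succ n ih =>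
    intro F hF
    by_cases hle : M.eRk F ≤ n
    · obtain ⟨f, h1, h2, h3⟩ := ih F hle
      exact ⟨f, fun x => (h1 x).trans (Nat.le_succ n), h2, h3⟩
    obtain ⟨H, hHF, hHlt, hout⟩ := hM F (lt_of_le_of_lt zero_le (not_le.1 hle))
    have hH : M.eRk (F ∩ M.closure H) ≤ n := by
      have h1 : M.eRk (F ∩ M.closure H) ≤ M.eRk H :=
        (M.eRk_mono Set.inter_subset_right).trans (M.eRk_closure_eq H).le
      have h2 : M.eRk H < ((n + 1 : ℕ) : ℕ∞) := hHlt.trans_le hF
      rw [Nat.cast_succ] at h2
      exact h1.trans (Order.le_of_lt_add_one h2)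
    obtain ⟨f, h1, h2, h3⟩ := ih _ hH
    refine ⟨fun x => if x ∈ M.closure H then f x else n + 1, fun x => ?_,
      fun A hA hsing hinj => ?_, fun A hA hind i => ?_⟩
    · dsimp only
      split_ifs
      · exact (h1 x).trans (Nat.le_succ n)
      · exact le_rfl
    · set B := A.filter fun x => x ∈ M.closure H with hB
      have hBind : M.Indep (B : Set E) := by
        refine h2 B ?_ (fun e he => hsing e (Finset.mem_filter.1 he).1) ?_
        · intro x hx
          obtain ⟨hxA, hxH⟩ := Finset.mem_filter.1 (Finset.mem_coe.1 hx)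
          exact ⟨hA hxA, hxH⟩
        · intro x hx y hy hxy
          obtain ⟨hxA, hxH⟩ := Finset.mem_filter.1 (Finset.mem_coe.1 hx)
          obtain ⟨hyA, hyH⟩ := Finset.mem_filter.1 (Finset.mem_coe.1 hy)
          exact hinj hxA hyA (by simp [hxH, hyH, hxy])
      by_cases hout' : ∃ x ∈ A, x ∉ M.closure H
      · obtain ⟨x, hxA, hxH⟩ := hout'
        have hAeq : (A : Set E) = insert x (B : Set E) := by
          ext y
          simp only [hB, Finset.coe_filter, Set.mem_insert_iff, Set.mem_ofPred_eq,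
            Finset.mem_coe]
          refine ⟨fun hy => ?_, fun hy => hy.elim (fun h => h ▸ hxA) And.left⟩
          by_cases hyH : y ∈ M.closure H
          · exact Or.inr ⟨hy, hyH⟩
          · exact Or.inl (hinj hy hxA (by simp [hxH, hyH]))
        rw [hAeq, hBind.insert_indep_iff]
        refine Or.inl ⟨(hsing x hxA).subset_ground rfl, fun hx => hxH ?_⟩
        refine M.closure_subset_closure_of_subset_closure (fun y hy => ?_) hx
        exact (Finset.mem_filter.1 (Finset.mem_coe.1 hy)).2
      · push Not at hout'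
        have : A = B := by
          ext y; simp only [hB, Finset.mem_filter]; exact ⟨fun h => ⟨h, hout' y h⟩, And.left⟩
        rw [this]; exact hBind
    · rcases eq_or_ne i (n + 1) with rfl | hi
      · have hsub : ((A.filter fun e => (if e ∈ M.closure H then f e else n + 1) = n + 1) : Set E)
            ⊆ F \ M.closure H := by
          intro x hx
          obtain ⟨hxA, hx'⟩ := Finset.mem_filter.1 (Finset.mem_coe.1 hx)
          refine ⟨hA hxA, fun hxH => ?_⟩
          rw [if_pos hxH] at hx'
          have := h1 x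
          omega
        have h := ((hind.subset (by intro x hx; exact (Finset.mem_filter.1 (Finset.mem_coe.1 hx)).1)
          ).encard_le_eRk_of_subset hsub).trans hout
        rw [Set.encard_coe_eq_coe_finsetCard] at h
        exact (Nat.cast_le.1 h).trans (le_max_left _ _)
      · refine le_trans (Finset.card_le_card ?_) (h3 (A.filter fun x => x ∈ M.closure H) ?_ ?_ i)
        · intro x hx
          obtain ⟨hxA, hx'⟩ := Finset.mem_filter.1 hx
          simp only at hx'
          by_cases hxH : x ∈ M.closure H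
          · rw [if_pos hxH] at hx'
            exact Finset.mem_filter.2 ⟨Finset.mem_filter.2 ⟨hxA, hxH⟩, hx'⟩
          · rw [if_neg hxH] at hx'
            exact absurd hx'.symm hi
        · intro x hx
          obtain ⟨hxA, hxH⟩ := Finset.mem_filter.1 (Finset.mem_coe.1 hx)
          exact ⟨hA hxA, hxH⟩
        · exact hind.subset fun x hx => (Finset.mem_filter.1 (Finset.mem_coe.1 hx)).1

theorem isCompetitive_of_degenerate {M : Matroid E} {C : ℕ} (hM : RankDegenerate M C) :
    IsCompetitive M ((4 * (max C 1 + 1) : ℕ) : ℝ≥0∞)⁻¹ := by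
  classical
  set n := Fintype.card E
  obtain ⟨f, h1, h2, h3⟩ := exists_flag hM n Set.univ
    ((M.eRk_le_encard _).trans (by simp [n]))
  refine isCompetitive_of_flag (part := fun e => (⟨f e, Nat.lt_succ_of_le (h1 e)⟩ : Fin (n + 1)))
    (fun _ => 1) (C := max C 1) (fun _ => Nat.one_pos) (fun A hsing hA => ?_) (fun A hA i => ?_)
  · refine h2 A (Set.subset_univ _) hsing fun x hx y hy hxy => ?_
    exact Finset.card_le_one.1 (hA ⟨f x, Nat.lt_succ_of_le (h1 x)⟩) x
      (Finset.mem_filter.2 ⟨hx, rfl⟩) y (Finset.mem_filter.2 ⟨hy, Fin.ext hxy.symm⟩)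
  · rw [mul_one]
    refine le_trans (Finset.card_le_card fun x hx => ?_) (h3 A (Set.subset_univ _) hA i.1)
    obtain ⟨hxA, hx'⟩ := Finset.mem_filter.1 hx
    exact Finset.mem_filter.2 ⟨hxA, congrArg Fin.val hx'⟩

theorem rankDegenerate_of_branchWidth {M : Matroid E} {w : ℕ} (hM : BranchWidthLE M w) :
    RankDegenerate M (2 * w + 1) := by
  classical
  obtain ⟨T, huniv, hT⟩ := hM
  intro F hF
  have hne : (T.filter fun X : Finset E => M.eRk (F \ (X : Set E)) < M.eRk F).Nonempty := by
    refine ⟨Finset.univ, Finset.mem_filter.2 ⟨huniv, ?_⟩⟩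
    simpa using hF
  obtain ⟨X, hX, hmin⟩ := Finset.exists_min_image _ Finset.card hne
  obtain ⟨hXT, hXlt⟩ := Finset.mem_filter.1 hX
  refine ⟨F \ (X : Set E), Set.sdiff_subset, hXlt, ?_⟩
  have hsub : M.eRk (F \ M.closure (F \ (X : Set E))) ≤ M.eRk (F ∩ (X : Set E)) := by
    rw [← M.eRk_inter_ground (F \ M.closure (F \ (X : Set E)))]
    refine M.eRk_mono ?_
    rintro x ⟨⟨hxF, hxc⟩, hxE⟩
    refine ⟨hxF, by_contra fun hxX => hxc ?_⟩
    exact M.mem_closure_of_mem' ⟨hxF, hxX⟩ hxE
  refine hsub.trans ?_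
  rcases Nat.lt_or_ge 1 X.card with hbig | hsmall
  swap
  · refine (M.eRk_le_encard _).trans ((Set.encard_le_encard Set.inter_subset_right).trans ?_)
    rw [Set.encard_coe_eq_coe_finsetCard]
    exact Nat.cast_le.2 (by omega)
  obtain ⟨Y, hY, Z, hZ, hYne, hZne, hdisj, hYZ⟩ := (hT X hXT).2 hbig
  have hside : ∀ W ∈ T, W.card < X.card → M.eRk (F ∩ (W : Set E)) ≤ w := by
    intro W hW hlt
    have hnot : ¬ M.eRk (F \ (W : Set E)) < M.eRk F := fun h => by
      have := hmin W (Finset.mem_filter.2 ⟨hW, h⟩)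
      omega
    rw [not_lt] at hnot
    have hcl : M.closure (F \ (W : Set E)) = M.closure F :=
      (M.isRkFinite_of_finite (Set.toFinite _)).closure_eq_closure_of_subset_of_eRk_ge_eRk
        Set.sdiff_subset hnot
    set G := M.closure (W : Set E)ᶜ with hG
    have hincl : F ∩ (W : Set E) ∩ M.E ⊆ (W : Set E) ∩ G := by
      rintro x ⟨⟨hxF, hxW⟩, hxE⟩
      refine ⟨hxW, ?_⟩
      have : x ∈ M.closure (F \ (W : Set E)) := hcl ▸ M.mem_closure_of_mem' hxF hxE
      exact M.closure_subset_closure (fun y hy => hy.2) this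
    have hsm := M.eRk_submod (W : Set E) G
    rw [hG, M.eRk_union_closure_right_eq, Set.union_compl_self, M.eRk_univ_eq,
      M.eRk_closure_eq, ← hG] at hsm
    have hfin : M.eRank ≠ ⊤ := by
      rw [← M.eRk_univ_eq]
      exact ne_top_of_le_ne_top (Set.toFinite _).encard_lt_top.ne (M.eRk_le_encard _)
    have h4 : M.eRk ((W : Set E) ∩ G) + M.eRank ≤ (w : ℕ∞) + M.eRank := by
      rw [add_comm (w : ℕ∞)]
      exact hsm.trans (hT W hW).1
    rw [ENat.add_le_add_iff_right hfin] at h4
    rw [← M.eRk_inter_ground]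
    exact (M.eRk_mono hincl).trans h4
  have hcard : Y.card + Z.card = X.card := by rw [← Finset.card_union_of_disjoint hdisj, hYZ]
  have hY' := hside Y hY (by have := hZne.card_pos; omega)
  have hZ' := hside Z hZ (by have := hYne.card_pos; omega)
  rw [← hYZ, Finset.coe_union, Set.inter_union_distrib_left]
  refine (M.eRk_union_le_eRk_add_eRk _ _).trans ((add_le_add hY' hZ').trans ?_)
  rw [← Nat.cast_add]
  exact Nat.cast_le.2 (by omega)

end Vale.Agent.P331.Deg
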