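import Mathlib

/-!
# Online rules with one sample: definitions
-/

namespace Vale.Agent.P331

open MeasureTheory
open scoped ENNReal

variable {E : Type}

/-- The set accepted by a rule: `decide r S hist e v` is the decision on the element `e` of value `v`
when the seed is `r`, the samples are `S` and `hist` lists the earlier arrivals with their values. -/
def accepted [DecidableEq E] {R : Type} (decide : R → (E → ℝ) → List (E × ℝ) → E → ℝ → Bool)
    (r : R) (S V : E → ℝ) : List (E × ℝ) → List E → Finset E
  | _, [] => ∅
  | hist, e :: l =>
      (if decide r S hist e (V e) then {e} else ∅) ∪ accepted decide r S V (hist ++ [(e, V e)]) l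

/-- The offline optimum: the greatest total value of an independent set. -/
noncomputable def opt (M : Matroid E) (V : E → ℝ) : ℝ≥0∞ :=
  ⨆ A : Finset E, ⨆ _ : M.Indep (A : Set E), ∑ e ∈ A, ENNReal.ofReal (V e)

/-- There is an online rule with a uniform random seed from a finite set which always keeps an
independent set and which, for all laws and every arrival order chosen knowing seed, samples and
values, gets at least `c` times the expected optimum. -/
def IsCompetitive [DecidableEq E] [Fintype E] (M : Matroid E) (c : ℝ≥0∞) : Prop :=
  ∃ (R : Type) (_ : Fintype R) (_ : Nonempty R)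
    (decide : R → (E → ℝ) → List (E × ℝ) → E → ℝ → Bool),
    (∀ r S V l, List.Nodup l → M.Indep (accepted decide r S V [] l : Set E)) ∧
    ∀ D : E → Measure ℝ, (∀ e, IsProbabilityMeasure (D e)) →
      ∀ π : R → (E → ℝ) → (E → ℝ) → List E, (∀ r S V, (π r S V).Nodup ∧ ∀ e, e ∈ π r S V) →
        c * ∫⁻ V, opt M V ∂(Measure.pi D) ≤
          ∫⁻ x, (Fintype.card R : ℝ≥0∞)⁻¹ *
            ∑ r, ∑ e ∈ accepted decide r x.1 x.2 [] (π r x.1 x.2), ENNReal.ofReal (x.2 e)
            ∂((Measure.pi D).prod (Measure.pi D))

end Vale.Agent.P331
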